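import Crest.Agent.N233.Hyp.Sub

/-!
# Row 233 (helper43): `W ⋊ F` is hyperbolic for a tree of chambers without squares

`S` = generators, `N` = nodes (chambers), `Ed` = edges (walls), `T s` = the chambers that contain `s`.
`W × N` develops convexly into the Coxeter group of the graph with the walls coned off.
-/

set_option autoImplicit false

noncomputable section

namespace Crest.Agent.N233.Hyp

open Crest.GroupTheory Crest.Agent.N255.Ra Relation

variable {S N Ed : Type} (Γ : SimpleGraph S) (src tgt : Ed → N) (T : S → Set N)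

/-- `e` joins `t` and `t'` -/
def End (e : Ed) (t t' : N) : Prop := (t = src e ∧ t' = tgt e) ∨ (t = tgt e ∧ t' = src e)

/-- `s` lies in the wall `e` -/
def Wl (e : Ed) (s : S) : Prop := src e ∈ T s ∧ tgt e ∈ T s

/-- acyclicity: every labelling of the edges is a coboundary -/
def Coc : Prop := ∀ (H : Type) [Group H] (g : Ed → H), ∃ c : N → H, ∀ e, c (tgt e) = c (src e) * g e

/-- the graph with the walls coned off -/
def cone : SimpleGraph (S ⊕ Ed) where
  Adj
    | .inl s, .inl s' => Γ.Adj s s'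
    | .inl s, .inr e => Wl src tgt T e s
    | .inr e, .inl s => Wl src tgt T e s
    | .inr _, .inr _ => False
  symm := ⟨by rintro (_ | _) (_ | _) h; exacts [h.symm, h, h, h]⟩
  loopless := ⟨by rintro (_ | _) h; exacts [Γ.irrefl h, h]⟩

/-- a tree of chambers -/
structure Mir : Prop where
  coc : Coc src tgt
  conn : ∀ t t', ReflTransGen (fun u v => ∃ e, End src tgt e u v) t t'
  Tconn : ∀ s, ∀ t ∈ T s, ∀ t' ∈ T s,
    ReflTransGen (fun u v => ∃ e, End src tgt e u v ∧ Wl src tgt T e s) t t'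
  Tne : ∀ s, (T s).Nonempty
  Tadj : ∀ s s', Γ.Adj s s' → (T s ∩ T s').Nonempty

/-- labelled edges of `W × N` -/
def mst (x : W Γ × N) : S ⊕ Ed → W Γ × N → Prop
  | .inl s, y => x.2 ∈ T s ∧ y = (x.1 * gen Γ s, x.2)
  | .inr e, y => y.1 = x.1 ∧ End src tgt e x.2 y.2

variable {Γ src tgt T}

theorem End.symm {e : Ed} {t t' : N} (h : End src tgt e t t') : End src tgt e t' t :=
  h.elim (fun h => Or.inr ⟨h.2, h.1⟩) fun h => Or.inl ⟨h.2, h.1⟩

theorem End.det {e : Ed} {t t' t'' : N} (h : End src tgt e t t') (h' : End src tgt e t t'') :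
    t' = t'' := by
  rcases h with ⟨a, b⟩ | ⟨a, b⟩ <;> rcases h' with ⟨c, d⟩ | ⟨c, d⟩ <;> simp_all

theorem End.mem {e : Ed} {t t' : N} (h : End src tgt e t t') {s : S} (hs : Wl src tgt T e s) :
    t' ∈ T s := h.elim (fun h => h.2 ▸ hs.2) fun h => h.2 ▸ hs.1

theorem Mir.lab (H : Mir Γ src tgt T) : ∃ φ, Lab (cone Γ src tgt T) (mst Γ src tgt T) φ := by
  obtain ⟨c, hc⟩ := H.coc (W (cone Γ src tgt T)) fun e => gen _ (.inr e)
  have hc' : ∀ e t t', End src tgt e t t' → c t' = c t * gen _ (.inr e) := by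
    rintro e t t' (⟨rfl, rfl⟩ | ⟨rfl, rfl⟩)
    · exact hc e
    · rw [hc, mul_gen_gen]
  choose n hn using H.Tne
  let f : S → W (cone Γ src tgt T) := fun s => c (n s) * gen _ (.inl s) * (c (n s))⁻¹
  have hf : ∀ s, ∀ t ∈ T s, f s = c t * gen _ (.inl s) * (c t)⁻¹ := fun s t ht => by
    induction H.Tconn s _ (hn s) t ht with
    | refl => rfl
    | tail _ h ih =>
      obtain ⟨e, h1, h2⟩ := h
      have hcm : Commute (gen (cone Γ src tgt T) (.inr e)) (gen _ (.inl s)) := gen_comm h2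
      rw [ih (h1.symm.mem h2), hc' _ _ _ h1, mul_inv_rev, gen_inv, mul_assoc (c _) (gen _ (.inr e)),
        hcm.eq, ← mul_assoc, ← mul_assoc, mul_gen_gen]
  let ψ : W Γ →* W (cone Γ src tgt T) := lift f (fun s => by
    simp only [f, mul_assoc, inv_mul_cancel_left, gen_gen_mul, mul_inv_cancel]) fun s s' h => by
      obtain ⟨t, h1, h2⟩ := H.Tadj s s' h
      rw [hf s t h1, hf s' t h2]
      exact (gen_comm (Γ := cone Γ src tgt T) (s := .inl s) (t := .inl s') h).conj (c t)
  have c1 : ∀ (w : W Γ) t t', ReflTransGen (fun u v => ∃ a, mst Γ src tgt T u a v) (w, t) (w, t') :=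
    fun w t t' => (H.conn t t').lift (fun t => (w, t)) fun _ _ ⟨e, he⟩ => ⟨.inr e, rfl, he⟩
  have sy : ∀ x a y, mst Γ src tgt T x a y → mst Γ src tgt T y a x := by
    rintro x (s | e) y h
    · obtain ⟨h, rfl⟩ := h
      exact ⟨h, by simp⟩
    · exact ⟨h.1.symm, h.2.symm⟩
  refine ⟨fun x => ψ x.1 * c x.2, sy, ?_, ?_, ?_, ?_⟩
  · rintro x (s | e) y y' h h'
    · rw [h.2, h'.2]
    · exact Prod.ext (h.1.trans h'.1.symm) (h.2.det h'.2)
  · rintro x (s | e) (s' | e') y z h h1 h2
    · obtain ⟨h1, rfl⟩ := h1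
      obtain ⟨h2, rfl⟩ := h2
      exact ⟨_, ⟨h2, rfl⟩, h1, by simp only [mul_assoc, (gen_comm (Γ := Γ) h).eq]⟩
    · obtain ⟨h1, rfl⟩ := h1
      exact ⟨(x.1 * gen Γ s, z.2), ⟨rfl, h2.2⟩, h2.2.mem h, by rw [h2.1]⟩
    · obtain ⟨h2, rfl⟩ := h2
      exact ⟨(x.1 * gen Γ s', y.2), ⟨h1.2.mem h, by rw [h1.1]⟩, rfl, h1.2⟩
    · exact h.elim
  · rintro x (s | e) y h
    · obtain ⟨h, rfl⟩ := h
      simp only [ψ, map_mul, lift_gen, hf s _ h, mul_assoc, inv_mul_cancel, mul_one]
    · simp only [h.1, hc' _ _ _ h.2, mul_assoc]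
  · have c2 : ∀ (w : W Γ) t t',
        ReflTransGen (fun u v => ∃ a, mst Γ src tgt T u a v) (1, t) (w, t') := fun w => by
      induction w using ind_right with
      | one => exact c1 1
      | mul w s ih =>
        exact fun t t' => ((ih t (n s)).tail ⟨.inl s, hn s, rfl⟩).trans (c1 _ _ _)
    intro x y
    refine ReflTransGen.trans ?_ (c2 y.1 x.2 y.2)
    have c3 := c2 x.1 x.2 x.2
    change ReflTransGen _ _ x at c3
    generalize ((1 : W Γ), x.2) = z at c3 ⊢
    induction c3 with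
    | refl => rfl
    | tail _ h ih => exact ih.head (h.imp fun a h => sy _ _ _ h)

theorem noSq_cone (hq : NoSq Γ)
    (hd : ∀ e e' s s', e ≠ e' → Wl src tgt T e s → Wl src tgt T e' s → Wl src tgt T e s' →
      Wl src tgt T e' s' → s ≠ s' → Γ.Adj s s')
    (hx : ∀ e a b d, Wl src tgt T e b → Wl src tgt T e d → b ≠ d → Γ.Adj a b → Γ.Adj a d →
      Γ.Adj b d ∨ Wl src tgt T e a) : NoSq (cone Γ src tgt T) := by
  rintro (a | a) (b | b) (c | c) (d | d) h1 h2 h3 h4 e1 e2
  all_goals first | exact h1.elim | exact h2.elim | exact h3.elim | exact h4.elim | skip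
  · exact hq a b c d h1 h2 h3 h4 (by simpa using e1) (by simpa using e2)
  · exact hx d b a c h4 h3 (by simpa using e1) h1.symm h2
  · exact (hx c a b d h2 h3 (by simpa using e2) h1 h4.symm).symm
  · exact hx b d a c h1 h2 (by simpa using e1) h4 h3.symm
  · exact Or.inl (hd b d a c (by simpa using e2) h1 h4 h2 h3 (by simpa using e1))
  · exact (hx a c b d h1 h4 (by simpa using e2) h2.symm h3).symm
  · exact Or.inr (hd a c b d (by simpa using e1) h1 h2 h4 h3 (by simpa using e2))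

theorem clB_cone {n : ℕ} (hn : ClB Γ n) : ClB (cone Γ src tgt T) (n + 1) := fun σ h => by
  rw [← Finset.card_toLeft_add_card_toRight]
  refine add_le_add (hn _ fun a ha b hb e => ?_) (Finset.card_le_one.2 fun a ha b hb => ?_)
  · exact h (Finset.mem_toLeft.1 ha) (Finset.mem_toLeft.1 hb) (by simpa using e)
  · by_contra e
    exact h (Finset.mem_toRight.1 ha) (Finset.mem_toRight.1 hb) (by simpa using e)

/-- **the semidirect product is hyperbolic** -/
theorem Mir.hyp (H : Mir Γ src tgt T) (hq : NoSq (cone Γ src tgt T)) {n : ℕ} (hn : ClB Γ n)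
    {F : Type} [Group F] [MulAction F N] (ρ : F →* (Γ ≃g Γ))
    (hT : ∀ (g : F) s t, t ∈ T s → g • t ∈ T (ρ g s))
    (hE : ∀ (g : F) e, ∃ e', End src tgt e' (g • src e) (g • tgt e))
    (l1 : ∀ t, {s | t ∈ T s}.Finite) (l2 : ∀ t, {t' | ∃ e, End src tgt e t t'}.Finite)
    {B : Set N} (hB : B.Finite) (hD : ∀ t, ∃ g : F, g • t ∈ B) (o : N)
    (hs : {g : F | g • o = o}.Finite) : IsHyperbolicGroup (W Γ ⋊[autHom ρ] F) := by
  obtain ⟨φ, hφ⟩ := H.lab
  let : MulAction (W Γ ⋊[autHom ρ] F) (W Γ × N) :=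
    { smul := fun g x => (g.left * autHom ρ g.right x.1, g.right • x.2)
      one_smul := fun x => Prod.ext (by change _ * _ = _; simp) (one_smul F x.2)
      mul_smul := fun g h x => Prod.ext (by change _ * _ = _ * autHom ρ _ (_ * _); simp [mul_assoc])
        (mul_smul g.right h.right x.2) }
  have e : ∀ (g : W Γ ⋊[autHom ρ] F) (x : W Γ × N),
      g • x = (g.left * autHom ρ g.right x.1, g.right • x.2) := fun _ _ => rfl
  refine hφ.hyp hq (clB_cone hn) ?_ (fun x => ?_) ((Set.finite_singleton 1).prod hB) (fun x => ?_)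
    (1, o) ((hs.image SemidirectProduct.inr).subset fun g hg => ?_)
  · rintro g x (s | e') y h
    · obtain ⟨h, rfl⟩ := h
      exact ⟨.inl (ρ g.right s), hT _ _ _ h, by simp [e, autHom_apply, mul_assoc]⟩
    · obtain ⟨e'', h'⟩ := hE g.right e'
      refine ⟨.inr e'', by simp only [e, h.1], ?_⟩
      rcases h.2 with ⟨a, b⟩ | ⟨a, b⟩ <;> simp only [e, a, b]
      exacts [h', h'.symm]
  · refine (((l1 x.2).image fun s => (x.1 * gen Γ s, x.2)).union
      ((l2 x.2).image fun t => (x.1, t))).subset ?_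
    rintro y ⟨s | e', h⟩
    · exact Or.inl ⟨s, h.1, h.2.symm⟩
    · exact Or.inr ⟨y.2, ⟨e', h.2⟩, Prod.ext h.1.symm rfl⟩
  · obtain ⟨g, hg⟩ := hD x.2
    exact ⟨⟨(autHom ρ g x.1)⁻¹, g⟩, by simpa [e] using hg⟩
  · have h1 := congrArg Prod.fst hg
    have h2 := congrArg Prod.snd hg
    simp only [e, map_one, mul_one] at h1 h2
    exact ⟨g.right, h2, SemidirectProduct.ext h1.symm rfl⟩

/-! ### trees -/

/-- rooted trees are acyclic -/
theorem coc_of_ht (ht : N → ℕ) (h1 : ∀ e, ht (src e) ≠ ht (tgt e))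
    (h2 : ∀ e e' t u u', End src tgt e t u → End src tgt e' t u' → ht u < ht t → ht u' < ht t →
      e = e') : Coc src tgt := by
  classical
  intro H _ g
  let c : N → H := (measure ht).wf.fix fun t ih =>
    if h : ∃ p : Ed × N, End src tgt p.1 t p.2 ∧ ht p.2 < ht t then
      ih h.choose.2 h.choose_spec.2 * (if t = tgt h.choose.1 then g h.choose.1 else (g h.choose.1)⁻¹)
    else 1
  have hc : ∀ e t u, End src tgt e t u → ht u < ht t →
      c t = c u * (if t = tgt e then g e else (g e)⁻¹) := fun e t u a b => by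
    have h : ∃ p : Ed × N, End src tgt p.1 t p.2 ∧ ht p.2 < ht t := ⟨(e, u), a, b⟩
    have e1 := h2 _ _ _ _ _ h.choose_spec.1 a h.choose_spec.2 b
    have e2 := (e1 ▸ h.choose_spec.1 : End src tgt e t h.choose.2).det a
    have e3 : c t = c h.choose.2 *
        (if t = tgt h.choose.1 then g h.choose.1 else (g h.choose.1)⁻¹) := by
      simp only [c]
      rw [WellFounded.fix_eq, dif_pos h]
    rw [e3, e1, e2]
  refine ⟨c, fun e => ?_⟩
  rcases (h1 e).lt_or_gt with h | h
  · rw [hc e _ _ (Or.inr ⟨rfl, rfl⟩) h, if_pos rfl]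
  · rw [hc e _ _ (Or.inl ⟨rfl, rfl⟩) h, if_neg fun e' => h1 e (congrArg ht e'), inv_mul_cancel_right]

/-- the Cayley tree of a free group -/
theorem coc_free (ι : Type) : Coc (fun e : FreeGroup ι × ι => e.1) fun e => e.1 * FreeGroup.of e.2 := by
  intro H _ g
  let p : ι → Equiv.Perm (FreeGroup ι × H) := fun i =>
    { toFun := fun x => (x.1 * .of i, x.2 * g (x.1, i))
      invFun := fun x => (x.1 * (.of i)⁻¹, x.2 * (g (x.1 * (.of i)⁻¹, i))⁻¹)
      left_inv := fun x => by simp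
      right_inv := fun x => by simp }
  let σ : FreeGroup ι →* Equiv.Perm (FreeGroup ι × H) := FreeGroup.lift fun i => (p i)⁻¹
  have h1 : ∀ f x, (σ f x).1 = x.1 * f⁻¹ := fun f => by
    induction f using FreeGroup.induction_on with
    | C1 => simp
    | of i => intro x; simp only [σ, FreeGroup.lift_apply_of]; rfl
    | inv_of i _ => intro x; simp only [σ, map_inv, FreeGroup.lift_apply_of, inv_inv]; rfl
    | mul a b iha ihb => intro x; simp [iha, ihb, mul_assoc]
  refine ⟨fun f => (σ f⁻¹ (1, 1)).2, fun e => ?_⟩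
  have h2 := h1 e.1⁻¹ (1, 1)
  simp only [mul_inv_rev, map_mul, map_inv σ (.of e.2), Equiv.Perm.mul_apply]
  simp only [σ, FreeGroup.lift_apply_of, inv_inv, one_mul] at h2 ⊢
  change _ * g (_, _) = _
  rw [h2]

theorem conn_free (ι : Type) (t t' : FreeGroup ι) : ReflTransGen (fun u v => ∃ e,
    End (fun e : FreeGroup ι × ι => e.1) (fun e => e.1 * FreeGroup.of e.2) e u v) t t' := by
  have : ∀ f t : FreeGroup ι, ReflTransGen (fun u v => ∃ e,
      End (fun e : FreeGroup ι × ι => e.1) (fun e => e.1 * FreeGroup.of e.2) e u v) t (t * f) := by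
    intro f
    induction f using FreeGroup.induction_on with
    | C1 => intro t; rw [mul_one]
    | of i => exact fun t => .single ⟨(t, i), Or.inl ⟨rfl, rfl⟩⟩
    | inv_of i _ => exact fun t => .single ⟨(t * (.of i)⁻¹, i), Or.inr ⟨by simp, rfl⟩⟩
    | mul a b iha ihb => exact fun t => mul_assoc t a b ▸ (iha t).trans (ihb _)
  simpa using this (t⁻¹ * t') t

end Crest.Agent.N233.Hyp

end
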