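import Crest.Agent.N233.Hyp.Act

/-!
# Row 233 (helper43): finite index subgroups and isomorphic groups
-/

set_option autoImplicit false

noncomputable section

namespace Crest.Agent.N233.Hyp

open Crest.GroupTheory Crest.Agent.R179 Crest.Agent.R179.HM998 Crest.Agent.R179.HL998

variable {G : Type*} [Group G]

theorem fp_of_hyp (h : IsHyperbolicGroup G) : ∃ (S : Finset G) (δ : ℝ),
    Subgroup.closure (Set.range (Subtype.val : S → G)) = ⊤ ∧
      FP (fun a b => (ds (Subtype.val : S → G) a b : ℝ)) δ := by
  obtain ⟨S, hS, δ, h0, h⟩ := h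
  have e : Set.range (Subtype.val : S → G) = S := by simp
  have hS' := e ▸ hS
  have hd := isGM hS'
  refine ⟨S, 2 * δ, hS', fun x => by simp [hd.self], fun x y => by rw [hd.comm], fun x y z => by
    exact_mod_cast hd.tri x y z, by positivity, fun w x y z => ?_⟩
  have e' : ∀ w a b : G, gromovProduct (S : Set G) w a b =
      gp (fun a b => (ds (Subtype.val : S → G) a b : ℝ)) w a b / 2 := fun w a b => by
    simp only [gp, hd.comm w]; rw [← e]; rfl
  have := h w x y z
  simp only [e'] at this
  rw [min_div_div_right (by norm_num)] at this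
  linarith

theorem nbr_finite {S : Type*} [Finite S] {f : S → G} (hS : Subgroup.closure (Set.range f) = ⊤)
    (a : G) : {b | ds f a b ≤ 1}.Finite := by
  refine ((Set.finite_range fun s : S × Bool => a * lt f s).insert a).subset fun b hb => ?_
  obtain ⟨w, h1, h2⟩ := exists_geo_word hS a b
  change ds f a b ≤ 1 at hb
  match w, h1, h2 with
  | [], _, h2 => exact Or.inl (by simpa using h2.symm)
  | [s], _, h2 => exact Or.inr ⟨s, by simpa using h2⟩
  | _ :: _ :: _, h1, _ => simp at h1; omega

/-- homomorphisms with finite kernel and image of finite index -/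
theorem hyp_of_hom {H : Type*} [Group H] (h : IsHyperbolicGroup G) (j : H →* G)
    (hk : (j.ker : Set H).Finite) [j.range.FiniteIndex] : IsHyperbolicGroup H := by
  obtain ⟨S, δ, hS, h⟩ := fp_of_hyp h
  let : MulAction H G := MulAction.compHom G j
  have e : ∀ (g : H) (a : G), g • a = j g * a := fun _ _ => rfl
  refine hyp_of_act' (isGM hS) h (fun g a b => ?_) (nbr_finite hS)
    (Set.finite_range fun q : G ⧸ j.range => q.out⁻¹) (fun a => ?_) 1 (hk.subset fun g hg => ?_)
  · simp only [e, ds, mul_inv_rev, mul_assoc, inv_mul_cancel_left]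
  · obtain ⟨⟨_, g, rfl⟩, hg⟩ := QuotientGroup.mk_out_eq_mul j.range a⁻¹
    exact ⟨g⁻¹, ((a⁻¹ : G) : G ⧸ j.range), by simp [hg, e]⟩
  · simpa [e] using hg

theorem hyp_of_inj {H : Type*} [Group H] (h : IsHyperbolicGroup G) (j : H →* G)
    (hj : Function.Injective j) [j.range.FiniteIndex] : IsHyperbolicGroup H :=
  hyp_of_hom h j (by rw [(MonoidHom.ker_eq_bot_iff j).2 hj]; simp)

/-- **finite index subgroups** -/
theorem hyp_subgroup (h : IsHyperbolicGroup G) (H : Subgroup G) [H.FiniteIndex] :
    IsHyperbolicGroup H :=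
  have : H.subtype.range.FiniteIndex := by rwa [H.range_subtype]
  hyp_of_inj h H.subtype H.subtype_injective

theorem hyp_of_mulEquiv {H : Type*} [Group H] (h : IsHyperbolicGroup G) (e : H ≃* G) :
    IsHyperbolicGroup H :=
  have : e.toMonoidHom.range.FiniteIndex := by
    rw [MonoidHom.range_eq_top.2 e.surjective]; infer_instance
  hyp_of_inj h e.toMonoidHom e.injective

end Crest.Agent.N233.Hyp

end
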