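import Crest.Agent.N233.Hyp.Ra

/-!
# Row 233 (helper43): Švarc–Milnor; locally convex labelled graphs over a right angled Coxeter group
-/

set_option autoImplicit false

noncomputable section

namespace Crest.Agent.N233.Hyp

open Crest.GroupTheory Crest.Agent.R179 Crest.Agent.R179.HM998 Crest.Agent.R179.HL998
open Crest.Agent.N255.Ra

section SM
variable {G P : Type*} [Group G] [MulAction G P] {e : P → P → ℕ} {δ : ℝ}

/-- **Švarc–Milnor** -/
theorem hyp_of_act (he : IsGM e) (h : FP (fun a b => (e a b : ℝ)) δ)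
    (hi : ∀ (g : G) a b, e (g • a) (g • b) = e a b) (o : P) (D : ℕ)
    (hD : ∀ a, ∃ g : G, e a (g • o) ≤ D) (hf : ∀ R, {g : G | e o (g • o) ≤ R}.Finite) :
    IsHyperbolicGroup G := by
  classical
  let S := {g : G | e o (g • o) ≤ 2 * D + 1}
  have : Finite S := (hf _).to_subtype
  let f : S → G := Subtype.val
  have one : ∀ a b : G, e (a • o) (b • o) ≤ 2 * D + 1 → ∃ s, a * f s = b := fun a b hab =>
    ⟨⟨a⁻¹ * b, by
      change e o ((a⁻¹ * b) • o) ≤ _
      rwa [← hi a, smul_smul, mul_inv_cancel_left]⟩, mul_inv_cancel_left a b⟩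
  have key : ∀ (n : ℕ) (a b : G) (x : P), e (a • o) x ≤ D → e x (b • o) ≤ n →
      ∃ w : List (S × Bool), w.length ≤ n + 1 ∧ a * ev f w = b := fun n => by
    induction n with
    | zero =>
      intro a b x h1 h2
      obtain ⟨s, hs⟩ := one a b (by have := he.tri (a • o) x (b • o); omega)
      exact ⟨[(s, true)], le_rfl, by simpa [lt] using hs⟩
    | succ n ih =>
      intro a b x h1 h2
      by_cases hc : e x (b • o) ≤ n
      · obtain ⟨w, h3, h4⟩ := ih a b x h1 hc
        exact ⟨w, by omega, h4⟩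
      obtain ⟨τ, hτ⟩ := he.geo x (b • o)
      have t1 := hτ.dist 0 1 (by omega) (by omega)
      have t2 := hτ.dist 1 _ (by omega) le_rfl
      rw [hτ.zero] at t1
      rw [hτ.last] at t2
      obtain ⟨c, hc'⟩ := hD (τ 1)
      obtain ⟨s, hs⟩ := one a c (by
        have := he.tri (a • o) x (c • o)
        have := he.tri x (τ 1) (c • o)
        omega)
      obtain ⟨w, h3, h4⟩ := ih c b (τ 1) (by rwa [he.comm]) (by omega)
      refine ⟨(s, true) :: w, by simp; omega, ?_⟩
      rw [ev_cons, ← mul_assoc, ← h4, ← hs]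
      simp [lt]
  have key' : ∀ a b : G, ∃ w : List (S × Bool), w.length ≤ e (a • o) (b • o) + 1 ∧ a * ev f w = b :=
    fun a b => key _ a b (a • o) (by rw [he.self]; omega) le_rfl
  have hS : Subgroup.closure (Set.range f) = ⊤ := by
    refine eq_top_iff.2 fun g _ => ?_
    obtain ⟨w, -, hw⟩ := key' 1 g
    rw [one_mul] at hw
    subst hw
    induction w with
    | nil => exact one_mem _
    | cons a w ih =>
      refine mul_mem ?_ (ih trivial)
      rcases lt_mem (f := f) a with h | h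
      · exact Subgroup.subset_closure h
      · exact inv_mem_iff.1 (Subgroup.subset_closure h)
  have up : ∀ (w : List (S × Bool)) (a : G),
      e (a • o) ((a * ev f w) • o) ≤ (2 * D + 1) * w.length := fun w => by
    induction w with
    | nil => intro a; simp [he.self]
    | cons s w ih =>
      intro a
      have h1 := ih (a * lt f s)
      have h2 : e (a • o) ((a * lt f s) • o) ≤ 2 * D + 1 := by
        rw [mul_smul, hi]
        unfold lt
        split_ifs
        · exact s.1.2
        · rw [← hi (f s.1), smul_inv_smul, he.comm]; exact s.1.2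
      have h3 := he.tri (a • o) ((a * lt f s) • o) ((a * lt f s * ev f w) • o)
      rw [ev_cons, ← mul_assoc, List.length_cons, mul_add]
      omega
  refine hyp_of_qi hS h (fun g => g • o) (2 * D + 1) (fun a b => ?_) fun a b => ?_
  · obtain ⟨w, h1, h2⟩ := exists_geo_word hS a b
    have := up w a
    rw [h2, h1] at this
    exact_mod_cast this
  · obtain ⟨w, h1, h2⟩ := key' a b
    have h3 := ds_le (f := f) a w
    rw [h2] at h3
    have h4 : ds f a b ≤ (2 * D + 1) * (e (a • o) (b • o) + 1) := by nlinarith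
    exact_mod_cast h4

theorem ball_finite (he : IsGM e) (hl : ∀ a, {b | e a b ≤ 1}.Finite) (o : P) (R : ℕ) :
    {b | e o b ≤ R}.Finite := by
  induction R with
  | zero => exact (hl o).subset fun b (hb : e o b ≤ 0) => (hb.trans zero_le_one : e o b ≤ 1)
  | succ R ih =>
    refine (ih.biUnion fun a _ => hl a).subset fun b hb => ?_
    change e o b ≤ R + 1 at hb
    by_cases hc : e o b ≤ R
    · exact Set.mem_biUnion (x := b) hc (by simp [he.self])
    obtain ⟨τ, hτ⟩ := he.geo o b
    have t1 := hτ.dist 0 R (by omega) (by omega)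
    have t2 := hτ.dist R _ (by omega) le_rfl
    rw [hτ.zero] at t1
    rw [hτ.last] at t2
    refine Set.mem_biUnion (x := τ R) (by change e o _ ≤ R; omega) (by change e _ b ≤ 1; omega)

/-- locally finite version: finitely many orbits, finite stabiliser -/
theorem hyp_of_act' (he : IsGM e) (h : FP (fun a b => (e a b : ℝ)) δ)
    (hi : ∀ (g : G) a b, e (g • a) (g • b) = e a b) (hl : ∀ a, {b | e a b ≤ 1}.Finite)
    {B : Set P} (hB : B.Finite) (hD : ∀ a, ∃ g : G, g • a ∈ B) (o : P)
    (hs : {g : G | g • o = o}.Finite) : IsHyperbolicGroup G := by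
  obtain ⟨D, hD'⟩ := (hB.image fun b => e b o).bddAbove
  refine hyp_of_act he h hi o D (fun a => ?_) fun R => ?_
  · obtain ⟨g, hg⟩ := hD a
    exact ⟨g⁻¹, by rw [← hi g, smul_inv_smul]; exact hD' ⟨_, hg, rfl⟩⟩
  · refine Set.Finite.of_finite_fibers (fun g : G => g • o)
      ((ball_finite he hl o R).subset (by rintro _ ⟨g, hg, rfl⟩; exact hg)) ?_
    rintro _ ⟨g, -, rfl⟩
    refine ((hs.image fun k => g * k).subset fun k hk => ⟨g⁻¹ * k, ?_, by simp⟩).inter_of_right _
    change (g⁻¹ * k) • o = o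
    rw [mul_smul, show k • o = g • o from hk, inv_smul_smul]

end SM

section Lab
variable {A : Type} {Γ : SimpleGraph A} {P : Type*}

/-- a connected, locally convex graph over the Cayley graph of `W Γ` -/
structure Lab (Γ : SimpleGraph A) (st : P → A → P → Prop) (φ : P → W Γ) : Prop where
  symm : ∀ x a y, st x a y → st y a x
  det : ∀ x a y y', st x a y → st x a y' → y = y'
  dia : ∀ x a b y z, Γ.Adj a b → st x a y → st x b z → ∃ u, st y b u ∧ st z a u
  map : ∀ x a y, st x a y → φ y = φ x * gen Γ a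
  conn : ∀ x y, Relation.ReflTransGen (fun u v => ∃ a, st u a v) x y

variable {st : P → A → P → Prop} {φ : P → W Γ}

/-- geodesic paths from `x` -/
inductive Rd (st : P → A → P → Prop) (φ : P → W Γ) (x : P) : P → Prop
  | nil : Rd st φ x x
  | cons {y z : P} {a : A} : Rd st φ x y → st y a z → a ∉ In ((φ x)⁻¹ * φ y) → Rd st φ x z

theorem Lab.down (H : Lab Γ st φ) {x y : P} (h : Rd st φ x y) :
    ∀ a ∈ In ((φ x)⁻¹ * φ y), ∃ z, st y a z ∧ Rd st φ x z := by
  induction h with
  | nil => simp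
  | @cons y z b h1 h2 h3 ih =>
    intro a ha
    rw [H.map _ _ _ h2, ← mul_assoc, In_mul_of_nmem h3] at ha
    rcases ha with rfl | ⟨h4, h5⟩
    · exact ⟨y, H.symm _ _ _ h2, h1⟩
    · obtain ⟨v, v1, v2⟩ := ih a h4
      obtain ⟨u, u1, u2⟩ := H.dia _ _ _ _ _ h5 h2 v1
      refine ⟨u, u1, v2.cons u2 fun hb => h3 ?_⟩
      rwa [H.map _ _ _ v1, ← mul_assoc, mem_In_mul_adj h5.symm] at hb

theorem Lab.rd (H : Lab Γ st φ) (x y : P) : Rd st φ x y := by
  induction H.conn x y with
  | refl => exact Rd.nil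
  | @tail y z _ h ih =>
    obtain ⟨a, h⟩ := h
    by_cases ha : a ∈ In ((φ x)⁻¹ * φ y)
    · obtain ⟨z', h1, h2⟩ := H.down ih a ha
      rwa [H.det _ _ _ _ h h1]
    · exact ih.cons h ha

/-- the metric -/
def dl (φ : P → W Γ) (x y : P) : ℕ := len ((φ x)⁻¹ * φ y)

theorem dl_self (x : P) : dl φ x x = 0 := by simp [dl]

theorem dl_comm (x y : P) : dl φ x y = dl φ y x := by
  rw [dl, ← len_inv, mul_inv_rev, inv_inv, dl]

theorem dl_tri (x y z : P) : dl φ x z ≤ dl φ x y + dl φ y z := by
  have := len_mul_le ((φ x)⁻¹ * φ y) ((φ y)⁻¹ * φ z)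
  rwa [← mul_assoc, mul_inv_cancel_right] at this

theorem Lab.dl_st (H : Lab Γ st φ) {x y : P} {a : A} (h : st x a y) : dl φ x y = 1 := by
  rw [dl, H.map _ _ _ h, inv_mul_cancel_left, len_gen]

theorem Lab.eq_of_dl (H : Lab Γ st φ) {x y : P} (h : dl φ x y = 0) : x = y := by
  cases H.rd x y with
  | nil => rfl
  | cons h1 h2 h3 =>
    rw [dl, H.map _ _ _ h2, ← mul_assoc, len_nmem h3] at h
    omega

/-- the developing map is injective -/
theorem Lab.inj (H : Lab Γ st φ) : Function.Injective φ := fun x y h =>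
  H.eq_of_dl (by simp [dl, h])

theorem Lab.step (H : Lab Γ st φ) {x y : P} {n : ℕ} (h : dl φ x y = n + 1) :
    ∃ a z, st y a z ∧ dl φ x z = n := by
  obtain ⟨a, ha⟩ := In_nonempty (w := (φ x)⁻¹ * φ y) fun e => by simp [dl, e] at h
  obtain ⟨z, h1, -⟩ := H.down (H.rd x y) a ha
  have := len_mem ha
  refine ⟨a, z, h1, ?_⟩
  rw [dl, H.map _ _ _ h1, ← mul_assoc]
  unfold dl at h
  omega

theorem Lab.isGM (H : Lab Γ st φ) : IsGM (dl φ) := by
  refine ⟨dl_self, dl_comm, dl_tri, fun x y => ?_⟩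
  have key : ∀ n y, dl φ x y = n → ∃ τ : ℕ → P, τ 0 = x ∧ τ n = y ∧
      ∀ i j, i ≤ j → j ≤ n → dl φ (τ i) (τ j) = j - i := fun n => by
    induction n with
    | zero =>
      intro y h
      exact ⟨fun _ => x, rfl, H.eq_of_dl h, fun i j _ _ => by rw [dl_self]; omega⟩
    | succ n ih =>
      intro y h
      obtain ⟨a, z, h1, h2⟩ := H.step h
      obtain ⟨τ, t0, t1, t2⟩ := ih z h2
      refine ⟨fun i => if i ≤ n then τ i else y, by simpa using t0, by simp, fun i j hij hj => ?_⟩
      by_cases c : j ≤ n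
      · simp only [if_pos c, if_pos (hij.trans c)]; exact t2 i j hij c
      by_cases c' : i ≤ n
      · simp only [if_neg c, if_pos c']
        have a1 := t2 0 i (by omega) c'
        have a2 := t2 i n c' le_rfl
        have a3 := dl_tri (φ := φ) x (τ i) y
        have a4 := dl_tri (φ := φ) (τ i) z y
        have a5 := H.dl_st (H.symm _ _ _ h1)
        rw [t0] at a1
        rw [t1] at a2
        omega
      · simp only [if_neg c, if_neg c', dl_self]; omega
  obtain ⟨τ, t0, t1, t2⟩ := key _ y rfl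
  exact ⟨τ, t0, t1, t2⟩

theorem Lab.dl_map_le (H : Lab Γ st φ) {ψ : P → P}
    (hψ : ∀ x a y, st x a y → ∃ b, st (ψ x) b (ψ y)) (n : ℕ) :
    ∀ x y, dl φ x y = n → dl φ (ψ x) (ψ y) ≤ n := by
  induction n with
  | zero => intro x y h; rw [H.eq_of_dl h, dl_self]
  | succ n ih =>
    intro x y h
    obtain ⟨a, z, h1, h2⟩ := H.step h
    obtain ⟨b, hb⟩ := hψ _ _ _ (H.symm _ _ _ h1)
    have := dl_tri (φ := φ) (ψ x) (ψ z) (ψ y)
    have := ih x z h2
    have := H.dl_st hb
    omega

/-- **groups acting geometrically on a locally convex graph over a no-square RACG** -/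
theorem Lab.hyp (H : Lab Γ st φ) (hq : NoSq Γ) {n : ℕ} (hn : ClB Γ n) {G : Type*} [Group G]
    [MulAction G P] (hi : ∀ (g : G) x a y, st x a y → ∃ b, st (g • x) b (g • y))
    (hl : ∀ x, {y | ∃ a, st x a y}.Finite) {B : Set P} (hB : B.Finite)
    (hD : ∀ x, ∃ g : G, g • x ∈ B) (o : P) (hs : {g : G | g • o = o}.Finite) :
    IsHyperbolicGroup G := by
  refine hyp_of_act' H.isGM ((fp_racg hq hn).comap φ) (fun g x y => le_antisymm
    (H.dl_map_le (hi g) _ x y rfl) ?_) (fun x => ((hl x).insert x).subset fun y hy => ?_) hB hD o hs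
  · simpa using H.dl_map_le (hi g⁻¹) _ (g • x) (g • y) rfl
  · change dl φ x y ≤ 1 at hy
    rcases Nat.eq_zero_or_pos (dl φ x y) with h | h
    · exact Or.inl (H.eq_of_dl h).symm
    · obtain ⟨a, z, h1, h2⟩ := H.step (n := 0) (x := x) (y := y) (by omega)
      exact Or.inr ⟨a, H.eq_of_dl h2 ▸ H.symm _ _ _ h1⟩

end Lab

end Crest.Agent.N233.Hyp

end
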