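import Crest.Agent.N233.Hyp.QI
import Crest.Agent.N255.Ra.Cube

/-!
# Row 233 (helper43): right angled Coxeter groups without squares satisfy the four point condition

The graph may be infinite; only the size of the cliques is bounded.
-/

set_option autoImplicit false

noncomputable section

namespace Crest.Agent.N233.Hyp

open Crest.Agent.N255.Ra

variable {S : Type} {Γ : SimpleGraph S}

/-- every `4`-cycle has a diagonal -/
def NoSq (Γ : SimpleGraph S) : Prop :=
  ∀ a b c d, Γ.Adj a b → Γ.Adj b c → Γ.Adj c d → Γ.Adj d a → a ≠ c → b ≠ d → Γ.Adj a c ∨ Γ.Adj b d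

/-- the cliques have at most `n` vertices -/
def ClB (Γ : SimpleGraph S) (n : ℕ) : Prop := ∀ σ : Finset S, Γ.IsClique (σ : Set S) → σ.card ≤ n

/-- lengths add up if there is no common descent -/
theorem len_mul_inv (y : W Γ) : ∀ x : W Γ, (∀ s ∈ In x, s ∉ In y) →
    len (x * y⁻¹) = len x + len y := by
  induction y using ind_red with
  | one => simp
  | mul y s hs ih =>
    intro x h
    have hx : s ∉ In x := fun hx => h s hx (mem_In_mul_self.2 hs)
    have := ih (x * gen Γ s) fun t ht ht' => by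
      rw [In_mul_of_nmem hx] at ht
      rcases ht with rfl | ⟨h1, h2⟩
      · exact hs ht'
      · exact h t h1 ((mem_In_mul_adj h2).2 ht')
    rw [mul_inv_rev, gen_inv, ← mul_assoc, this, len_nmem hx, len_nmem hs]
    omega

/-- `a` is a suffix of `y` -/
def Suf (a y : W Γ) : Prop := len (y * a⁻¹) + len a = len y

variable {a b y : W Γ} {s : S}

theorem Suf.of_le (h : len (y * a⁻¹) + len a ≤ len y) : Suf a y := by
  have := len_mul_le (y * a⁻¹) a
  rw [inv_mul_cancel_right] at this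
  exact le_antisymm h this

theorem Suf.mem (h : Suf a y) (hs : s ∈ In a) : s ∈ In y := by
  have h1 := len_mul_le (y * a⁻¹) (a * gen Γ s)
  rw [← mul_assoc, inv_mul_cancel_right] at h1
  have h2 := len_mem hs
  unfold Suf at h
  change len _ < len _
  omega

theorem Suf.trans {m : W Γ} (h : Suf m a) (h' : Suf a y) : Suf m y := by
  have := len_mul_le (y * a⁻¹) (a * m⁻¹)
  rw [← mul_assoc, inv_mul_cancel_right] at this
  unfold Suf at h h'
  exact Suf.of_le (by omega)

/-- medians -/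
theorem exists_med (n : ℕ) : ∀ x y : W Γ, len x = n →
    ∃ p, Suf p x ∧ Suf p y ∧ len (x * y⁻¹) + 2 * len p = len x + len y := by
  induction n using Nat.strong_induction_on with
  | _ n ih =>
    intro x y hn
    by_cases h : ∀ s ∈ In x, s ∉ In y
    · exact ⟨1, by simp [Suf], by simp [Suf], by simp [len_mul_inv y x h]⟩
    push Not at h
    obtain ⟨s, hx, hy⟩ := h
    have e1 := len_mem hx
    have e2 := len_mem hy
    obtain ⟨p, p1, p2, p3⟩ := ih _ (by omega) (x * gen Γ s) (y * gen Γ s) rfl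
    have e3 := len_nmem fun hp => mem_In_mul_self.1 (p1.mem hp) hx
    refine ⟨p * gen Γ s, ?_, ?_, ?_⟩
    · unfold Suf at p1 ⊢; rw [mul_inv_rev, gen_inv, ← mul_assoc]; omega
    · unfold Suf at p2 ⊢; rw [mul_inv_rev, gen_inv, ← mul_assoc]; omega
    · rw [mul_inv_rev, gen_inv, ← mul_assoc, mul_gen_gen] at p3; omega

/-- words, read from the right -/
def wr (Γ : SimpleGraph S) : List S → W Γ
  | [] => 1
  | s :: l => wr Γ l * gen Γ s

theorem len_wr_le (l : List S) : len (wr Γ l) ≤ l.length := by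
  induction l with
  | nil => simp [wr]
  | cons s l ih =>
    have := len_mul_le (wr Γ l) (gen Γ s)
    rw [len_gen] at this
    simp only [wr, List.length_cons]
    omega

theorem exists_wr (w : W Γ) : ∃ l, wr Γ l = w ∧ len (wr Γ l) = l.length := by
  induction w using ind_red with
  | one => exact ⟨[], rfl, by simp [wr]⟩
  | mul w s hs ih =>
    obtain ⟨l, rfl, h⟩ := ih
    exact ⟨s :: l, rfl, by rw [wr, len_nmem hs, h, List.length_cons]⟩

theorem wr_mem {A : Set S} {l : List S} (h : ∀ s ∈ l, s ∈ A) : wr Γ l ∈ WT Γ A := by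
  induction l with
  | nil => exact one_mem _
  | cons s l ih =>
    exact mul_mem (ih fun t ht => h t (List.mem_cons_of_mem _ ht)) (gen_mem_WT (h s (by simp)))

theorem red_cons {l : List S} (h : len (wr Γ (s :: l)) = (s :: l).length) :
    len (wr Γ l) = l.length ∧ s ∉ In (wr Γ l) := by
  have h1 := len_wr_le (Γ := Γ) l
  rw [wr, List.length_cons] at h
  by_cases hs : s ∈ In (wr Γ l)
  · have := len_mem hs; omega
  · have := len_nmem hs; exact ⟨by omega, hs⟩

theorem Suf.cons {l : List S} (h : len (wr Γ (s :: l)) = (s :: l).length)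
    (hy : Suf (wr Γ (s :: l)) y) : s ∈ In y ∧ Suf (wr Γ l) (y * gen Γ s) := by
  have h1 := (red_cons h).2
  have h2 : s ∈ In y := hy.mem (mem_In_mul_self.2 h1)
  have h3 := len_mem h2
  have h4 := len_nmem h1
  refine ⟨h2, ?_⟩
  unfold Suf at hy ⊢
  rw [wr, mul_inv_rev, gen_inv, ← mul_assoc] at hy
  omega

theorem adj_one (l : List S) : ∀ y : W Γ, len (wr Γ l) = l.length → Suf (wr Γ l) y → s ∈ In y →
    s ∉ In (wr Γ l) → (∀ t ∈ l, Γ.Adj s t) ∧ s ∈ In (y * (wr Γ l)⁻¹) := by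
  induction l with
  | nil => intro y _ _ h _; simpa [wr] using h
  | cons t l ih =>
    intro y h1 h2 h3 h4
    obtain ⟨h5, h6⟩ := h2.cons h1
    have hne : t ≠ s := by
      rintro rfl
      exact h4 (mem_In_mul_self.2 (red_cons h1).2)
    have ha : Γ.Adj t s := In_clique y h5 h3 hne
    obtain ⟨e1, e2⟩ := ih _ (red_cons h1).1 h6 ((mem_In_mul_adj ha).2 h3)
      fun h => h4 ((mem_In_mul_adj ha).2 h)
    refine ⟨by simpa [ha.symm] using e1, ?_⟩
    rwa [wr, mul_inv_rev, gen_inv, ← mul_assoc]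

theorem adj_all {l' : List S} (h' : len (wr Γ l') = l'.length) (l : List S) :
    ∀ y : W Γ, len (wr Γ l) = l.length → Suf (wr Γ l) y → Suf (wr Γ l') y →
      len (wr Γ l * (wr Γ l')⁻¹) = len (wr Γ l) + len (wr Γ l') →
      ∀ s ∈ l, ∀ t ∈ l', Γ.Adj s t := by
  induction l with
  | nil => simp
  | cons s l ih =>
    intro y h1 h2 h3 h4
    obtain ⟨h5, h6⟩ := h2.cons h1
    obtain ⟨h7, h8⟩ := red_cons h1
    have h9 := len_nmem h8
    have hs : s ∉ In (wr Γ l') := fun hs => by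
      have e1 := len_mem hs
      have e2 := len_mul_le (wr Γ l) (wr Γ l' * gen Γ s)⁻¹
      rw [len_inv, mul_inv_rev, gen_inv, ← mul_assoc] at e2
      rw [wr] at h4
      omega
    obtain ⟨e1, e2⟩ := adj_one l' y h' h3 h5 hs
    have hc : Commute (gen Γ s) (wr Γ l')⁻¹ :=
      (comm_WT (A := {t | Γ.Adj s t}) (fun _ h _ => h) (wr_mem e1)).inv_right
    have := ih _ h7 h6 (by
      have := len_mem e2
      have := len_mem h5
      unfold Suf at h3 ⊢
      rw [mul_assoc, hc.eq, ← mul_assoc]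
      omega) (by
      have a1 := len_mul_le (wr Γ l * (wr Γ l')⁻¹) (gen Γ s)
      have a2 := len_mul_le (wr Γ l) (wr Γ l')⁻¹
      rw [wr, mul_assoc, hc.eq, ← mul_assoc] at h4
      rw [len_gen] at a1
      rw [len_inv] at a2
      omega)
    simpa using ⟨e1, this⟩

theorem len_le_of_clique {n : ℕ} (hn : ClB Γ n) {l : List S}
    (h : ∀ s ∈ l, ∀ t ∈ l, s ≠ t → Γ.Adj s t) : len (wr Γ l) ≤ n := by
  classical
  have hc : Γ.IsClique (l.toFinset : Set S) := fun s hs t ht =>
    h s (by simpa using hs) t (by simpa using ht)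
  obtain ⟨σ, h1, h2⟩ := (mem_WT hc).1 (wr_mem (l := l) fun s hs => by simpa using hs)
  have h3 := hc.subset (Finset.coe_subset.2 h1)
  rw [h2, len_pr h3]
  exact hn σ h3

/-- intervals are thin -/
theorem thin (hq : NoSq Γ) {n : ℕ} (hn : ClB Γ n) (ha : Suf a y) (hb : Suf b y)
    (h : len (a * b⁻¹) = len a + len b) : len a ≤ n ∨ len b ≤ n := by
  obtain ⟨l, rfl, h1⟩ := exists_wr a
  obtain ⟨l', rfl, h2⟩ := exists_wr b
  have h3 := adj_all h2 l y h1 ha hb h
  by_cases hc : ∀ s ∈ l, ∀ t ∈ l, s ≠ t → Γ.Adj s t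
  · exact Or.inl (len_le_of_clique hn hc)
  push Not at hc
  obtain ⟨s, hs, s', hs', e1, e2⟩ := hc
  exact Or.inr (len_le_of_clique hn fun t ht t' ht' e =>
    (hq s t s' t' (h3 s hs t ht) (h3 s' hs' t ht).symm (h3 s' hs' t' ht') (h3 s hs t' ht').symm
      e1 e).resolve_left e2)

theorem fp_core (hq : NoSq Γ) {n : ℕ} (hn : ClB Γ n) (x y z : W Γ) :
    len y + len (x * z⁻¹) ≤ len z + len (x * y⁻¹) + 2 * n ∨
      len y + len (x * z⁻¹) ≤ len x + len (y * z⁻¹) + 2 * n := by
  obtain ⟨p, p1, p2, p3⟩ := exists_med _ x y rfl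
  obtain ⟨q, q1, q2, q3⟩ := exists_med _ y z rfl
  obtain ⟨m, m1, m2, m3⟩ := exists_med _ p q rfl
  have a1 := m1.trans p1
  have a2 := m1.trans p2
  have a3 := m2.trans q2
  have a4 := len_mul_le (x * m⁻¹) (z * m⁻¹)⁻¹
  rw [len_inv, mul_inv_rev, inv_inv, ← mul_assoc, inv_mul_cancel_right] at a4
  have e : ∀ u v : W Γ, u * m⁻¹ * (v * m⁻¹)⁻¹ = u * v⁻¹ := fun u v => by group
  have := thin hq hn (a := p * m⁻¹) (b := q * m⁻¹) (y := y * m⁻¹)
    (by unfold Suf at *; rw [e]; omega) (by unfold Suf at *; rw [e]; omega)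
    (by unfold Suf at *; rw [e]; omega)
  unfold Suf at *
  omega

/-- **the four point condition** -/
theorem fp_racg (hq : NoSq Γ) {n : ℕ} (hn : ClB Γ n) :
    FP (fun a b : W Γ => (len (a⁻¹ * b) : ℝ)) (2 * n) := by
  have c : ∀ a b : W Γ, len (a⁻¹ * b) = len (b⁻¹ * a) := fun a b => by
    rw [← len_inv, mul_inv_rev, inv_inv]
  refine ⟨fun x => by simp, fun x y => by rw [c], fun x y z => ?_, by positivity, fun w x y z => ?_⟩
  · have := len_mul_le (x⁻¹ * y) (y⁻¹ * z)
    rw [← mul_assoc, mul_inv_cancel_right] at this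
    exact_mod_cast this
  · have e : ∀ u v : W Γ, u⁻¹ * w * (v⁻¹ * w)⁻¹ = u⁻¹ * v := fun u v => by group
    have := fp_core hq hn (x⁻¹ * w) (y⁻¹ * w) (z⁻¹ * w)
    simp only [e] at this
    simp only [gp, c w]
    rcases this with h | h
    · have h' : (len (y⁻¹ * w) : ℝ) + len (x⁻¹ * z) ≤ len (z⁻¹ * w) + len (x⁻¹ * y) + 2 * n := by
        exact_mod_cast h
      linarith [min_le_left ((len (x⁻¹ * w) : ℝ) + len (y⁻¹ * w) - len (x⁻¹ * y))
        ((len (y⁻¹ * w) : ℝ) + len (z⁻¹ * w) - len (y⁻¹ * z))]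
    · have h' : (len (y⁻¹ * w) : ℝ) + len (x⁻¹ * z) ≤ len (x⁻¹ * w) + len (y⁻¹ * z) + 2 * n := by
        exact_mod_cast h
      linarith [min_le_right ((len (x⁻¹ * w) : ℝ) + len (y⁻¹ * w) - len (x⁻¹ * y))
        ((len (y⁻¹ * w) : ℝ) + len (z⁻¹ * w) - len (y⁻¹ * z))]

end Crest.Agent.N233.Hyp

end
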